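import Vale.Agent.P204.Final2

namespace Vale.Agent.Results.P204.A_full

open scoped Manifold ContDiff
open Vale.Agent.P204T

theorem result {X : Type*} [TopologicalSpace X] [T2Space X] [CompactSpace X] [ConnectedSpace X]
    [ChartedSpace (EuclideanSpace ℝ (Fin 4)) X] [IsManifold 𝓘(ℝ, EuclideanSpace ℝ (Fin 4)) ∞ X]
    (J : AlmostComplex (EuclideanSpace ℝ (Fin 4)) X)
    (h : ∃ Ω : TwoForm (EuclideanSpace ℝ (Fin 4)) X, Ω.IsSymplectic ∧ Ω.Tames J) :
    ∃ β : TwoForm (EuclideanSpace ℝ (Fin 4)) X, β.IsSymplectic ∧ β.Compatible J :=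
  Vale.Agent.P204.final2 J h

end Vale.Agent.Results.P204.A_full
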